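import Mathlib

/-!
Auxiliary results for block SPEC: approximate eigenvectors on the boundary of the spectrum, a
compactness lemma, common eigenvectors of commuting families and continuous characters of the
half-line.
-/

open Set Filter Topology

namespace Vale.Agent.P139Z.Spec

/-- If the spectral radius is below one, the powers become small. -/
theorem pow_small {A : Type*} [NormedRing A] [NormedAlgebra ℂ A] [CompleteSpace A] (a : A)
    (h : spectralRadius ℂ a < 1) (η : ℝ) (hη : 0 < η) :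
    ∀ᶠ m : ℕ in atTop, ‖a ^ m‖ ≤ η := by
  obtain ⟨r, hr1, hr2⟩ := ENNReal.lt_iff_exists_nnreal_btwn.1 h
  have hr : (r : ℝ) < 1 := by exact_mod_cast hr2
  have h1 := spectrum.pow_norm_pow_one_div_tendsto_nhds_spectralRadius a
  have h2 : ∀ᶠ m : ℕ in atTop, ENNReal.ofReal (‖a ^ m‖ ^ (1 / m : ℝ)) < r :=
    h1.eventually (gt_mem_nhds hr1)
  have h3 : Tendsto (fun m : ℕ => (r : ℝ) ^ m) atTop (𝓝 0) :=
    tendsto_pow_atTop_nhds_zero_of_lt_one r.2 hr
  have h4 : ∀ᶠ m : ℕ in atTop, (r : ℝ) ^ m < η := h3.eventually (gt_mem_nhds hη)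
  filter_upwards [h2, h4, eventually_ge_atTop 1] with m hm2 hm4 hm1
  have hm0 : (m : ℝ) ≠ 0 := by positivity
  have h5 : ‖a ^ m‖ ^ (1 / m : ℝ) < r := by
    rw [← ENNReal.ofReal_coe_nnreal] at hm2
    exact (ENNReal.ofReal_lt_ofReal_iff_of_nonneg (by positivity)).1 hm2
  have h6 : ‖a ^ m‖ = (‖a ^ m‖ ^ (1 / m : ℝ)) ^ m := by
    rw [← Real.rpow_natCast, ← Real.rpow_mul (norm_nonneg _), one_div_mul_cancel hm0,
      Real.rpow_one]
  rw [h6]
  exact ((pow_le_pow_left₀ (by positivity) h5.le m).trans hm4.le)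

/-- A spectral value of maximal modulus is an approximate eigenvalue. -/
theorem not_bddBelow {X : Type*} [NormedAddCommGroup X] [NormedSpace ℂ X] [CompleteSpace X]
    (A : X →L[ℂ] X) (z : ℂ) (hz : z ∈ spectrum ℂ A) (hz0 : z ≠ 0)
    (hmax : (‖z‖₊ : ENNReal) = spectralRadius ℂ A) (c : ℝ) (hc : 0 < c) :
    ∃ x, ‖A x - z • x‖ < c * ‖x‖ := by
  by_contra hcon
  push Not at hcon
  have hzn : 0 < ‖z‖ := norm_pos_iff.2 hz0
  set ε : ℝ := c / (4 * ‖z‖) with hε
  have hε0 : 0 < ε := by positivity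
  set w : ℂ := ((1 + ε : ℝ) : ℂ) * z with hw
  have hwz : ‖w - z‖ = c / 4 := by
    have : w - z = (ε : ℂ) * z := by rw [hw]; push_cast; ring
    rw [this, norm_mul, Complex.norm_real, Real.norm_of_nonneg hε0.le, hε]
    field_simp
  have hwn : ‖z‖ < ‖w‖ := by
    rw [hw, norm_mul, Complex.norm_real, Real.norm_of_nonneg (by positivity)]
    nlinarith
  have hres : w ∈ resolventSet ℂ A := by
    apply spectrum.mem_resolventSet_of_spectralRadius_lt
    rw [← hmax]
    exact_mod_cast hwn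
  obtain ⟨u, hu⟩ := hres
  have hu' : ∀ x, (u : X →L[ℂ] X) x = w • x - A x := by
    intro x
    rw [hu]
    simp [Algebra.algebraMap_eq_smul_one]
  have hlow : ∀ x, c / 2 * ‖x‖ ≤ ‖(u : X →L[ℂ] X) x‖ := by
    intro x
    have h1 := hcon x
    have h2 : A x - z • x = -((u : X →L[ℂ] X) x) + (w - z) • x := by
      rw [hu', sub_smul]; abel
    have h3 : ‖A x - z • x‖ ≤ ‖(u : X →L[ℂ] X) x‖ + c / 4 * ‖x‖ := by
      rw [h2]
      refine (norm_add_le _ _).trans ?_
      rw [norm_neg, norm_smul, hwz]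
    nlinarith [norm_nonneg x]
  have hinv : ‖((u⁻¹ : (X →L[ℂ] X)ˣ) : X →L[ℂ] X)‖ ≤ 2 / c := by
    refine ContinuousLinearMap.opNorm_le_bound _ (by positivity) fun x => ?_
    have h1 := hlow (((u⁻¹ : (X →L[ℂ] X)ˣ) : X →L[ℂ] X) x)
    have h2 : (u : X →L[ℂ] X) (((u⁻¹ : (X →L[ℂ] X)ˣ) : X →L[ℂ] X) x) = x := by
      rw [← mul_apply_eq_comp, u.mul_inv, one_apply_eq_self]
    rw [h2] at h1
    rw [div_mul_eq_mul_div, le_div_iff₀ hc]
    linarith
  apply hz
  rcases subsingleton_or_nontrivial (X →L[ℂ] X) with hs | hs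
  · exact isUnit_of_subsingleton _
  have hpos : 0 < ‖((u⁻¹ : (X →L[ℂ] X)ˣ) : X →L[ℂ] X)‖ := Units.norm_pos u⁻¹
  have ht : ‖algebraMap ℂ (X →L[ℂ] X) (z - w)‖ < ‖((u⁻¹ : (X →L[ℂ] X)ˣ) : X →L[ℂ] X)‖⁻¹ := by
    have h1 : ‖algebraMap ℂ (X →L[ℂ] X) (z - w)‖ ≤ c / 4 := by
      refine ContinuousLinearMap.opNorm_le_bound _ (by positivity) fun x => ?_
      simp only [Algebra.algebraMap_eq_smul_one, smul_apply, one_apply_eq_self]
      rw [norm_smul, norm_sub_rev, hwz]
    have h2 : c / 2 ≤ ‖((u⁻¹ : (X →L[ℂ] X)ˣ) : X →L[ℂ] X)‖⁻¹ := by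
      rw [le_inv_comm₀ (by positivity) hpos]
      simpa using hinv
    linarith
  refine ⟨u.add _ ht, ?_⟩
  rw [Units.val_add, hu, map_sub]
  abel

/-- An operator that is bounded below modulo a finite-rank map and has approximate null vectors
has a null vector. -/
theorem exists_null {X F : Type*} [NormedAddCommGroup X] [NormedSpace ℂ X] [CompleteSpace X]
    [NormedAddCommGroup F] [NormedSpace ℂ F] [FiniteDimensional ℂ F]
    (B : X →L[ℂ] X) (Ψ : X →L[ℂ] F) (c C : ℝ) (hc : 0 < c)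
    (hB : ∀ x, c * ‖x‖ ≤ ‖B x‖ + C * ‖Ψ x‖)
    (happ : ∀ ε : ℝ, 0 < ε → ∃ x, ‖B x‖ < ε * ‖x‖) : ∃ x, x ≠ 0 ∧ B x = 0 := by
  have : ProperSpace F := FiniteDimensional.proper ℂ F
  have h1 : ∀ j : ℕ, ∃ x : X, ‖x‖ = 1 ∧ ‖B x‖ ≤ 1 / ((j : ℝ) + 1) := by
    intro j
    obtain ⟨x, hx⟩ := happ (1 / ((j : ℝ) + 1)) (by positivity)
    have hx0 : 0 < ‖x‖ := by
      rcases (norm_nonneg x).lt_or_eq with h | h
      · exact h
      · rw [← h, mul_zero] at hx
        exact absurd hx (not_lt.2 (norm_nonneg _))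
    refine ⟨((‖x‖⁻¹ : ℝ) : ℂ) • x, ?_, ?_⟩
    · rw [norm_smul, Complex.norm_real, Real.norm_of_nonneg (by positivity),
        inv_mul_cancel₀ hx0.ne']
    · rw [map_smul, norm_smul, Complex.norm_real, Real.norm_of_nonneg (by positivity),
        inv_mul_le_iff₀ hx0, mul_comm]
      exact hx.le
  choose x hx1 hx2 using h1
  have hmem : ∀ j, Ψ (x j) ∈ Metric.closedBall (0 : F) ‖Ψ‖ := by
    intro j
    rw [mem_closedBall_zero_iff]
    simpa [hx1 j] using Ψ.le_opNorm (x j)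
  obtain ⟨f, -, φ, hφ, hf⟩ := (isCompact_closedBall (0 : F) ‖Ψ‖).tendsto_subseq hmem
  have hB0 : Tendsto (fun j => B (x (φ j))) atTop (𝓝 0) := by
    have h0 : Tendsto (fun j => B (x j)) atTop (𝓝 0) :=
      squeeze_zero_norm hx2 tendsto_one_div_add_atTop_nhds_zero_nat
    exact h0.comp hφ.tendsto_atTop
  have hcau : CauchySeq (fun j => x (φ j)) := by
    rw [Metric.cauchySeq_iff]
    intro ε hε
    have hδ : 0 < c * ε / (2 * (|C| + 1)) := by positivity
    obtain ⟨N₁, hN₁⟩ := Metric.cauchySeq_iff.1 hB0.cauchySeq _ hδ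
    obtain ⟨N₂, hN₂⟩ := Metric.cauchySeq_iff.1 hf.cauchySeq _ hδ
    refine ⟨max N₁ N₂, fun m hm k hk => ?_⟩
    have e1 := hN₁ m (le_of_max_le_left hm) k (le_of_max_le_left hk)
    have e2 := hN₂ m (le_of_max_le_right hm) k (le_of_max_le_right hk)
    have e3 := hB (x (φ m) - x (φ k))
    rw [map_sub, map_sub] at e3
    rw [dist_eq_norm] at e1 e2 ⊢
    simp only [Function.comp] at e2
    set δ := c * ε / (2 * (|C| + 1)) with hδ'
    have e4 : C * ‖Ψ (x (φ m)) - Ψ (x (φ k))‖ ≤ |C| * δ :=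
      (mul_le_mul_of_nonneg_right (le_abs_self C) (norm_nonneg _)).trans
        (mul_le_mul_of_nonneg_left e2.le (abs_nonneg C))
    have e5 : (|C| + 1) * δ = c * ε / 2 := by
      rw [hδ']; field_simp
    have e6 : c * ‖x (φ m) - x (φ k)‖ < c * ε := by nlinarith [mul_pos hc hε]
    exact lt_of_mul_lt_mul_left e6 hc.le
  obtain ⟨y, hy⟩ := cauchySeq_tendsto_of_complete hcau
  refine ⟨y, ?_, ?_⟩
  · have h2 : Tendsto (fun j => ‖x (φ j)‖) atTop (𝓝 ‖y‖) := hy.norm
    simp only [hx1] at h2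
    have h3 : ‖y‖ = 1 := (tendsto_nhds_unique h2 tendsto_const_nhds)
    intro h
    rw [h, norm_zero] at h3
    exact zero_ne_one h3
  · exact tendsto_nhds_unique ((B.continuous.tendsto y).comp hy) hB0

/-- A commuting family on a nonzero finite-dimensional invariant subspace has a common
eigenvector. -/
theorem common_eigen {V ι : Type*} [AddCommGroup V] [Module ℂ V] (f : ι → V →ₗ[ℂ] V)
    (W : Submodule ℂ V) [FiniteDimensional ℂ W] (hW : W ≠ ⊥)
    (hinv : ∀ i, ∀ x ∈ W, f i x ∈ W)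
    (hcomm : ∀ i j, ∀ x ∈ W, f i (f j x) = f j (f i x)) :
    ∃ x ∈ W, x ≠ 0 ∧ ∀ i, ∃ c : ℂ, f i x = c • x := by
  classical
  have hex : ∃ n : ℕ, ∃ U : Submodule ℂ V, U ≤ W ∧ U ≠ ⊥ ∧ (∀ i, ∀ x ∈ U, f i x ∈ U) ∧
      Module.finrank ℂ U = n := ⟨_, W, le_rfl, hW, hinv, rfl⟩
  obtain ⟨U, hUW, hU0, hUinv, hUn⟩ := Nat.find_spec hex
  have : FiniteDimensional ℂ U := Submodule.finiteDimensional_of_le hUW
  obtain ⟨x, hxU, hx0⟩ := (Submodule.ne_bot_iff U).1 hU0
  refine ⟨x, hUW hxU, hx0, fun i => ?_⟩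
  have : Nontrivial U := Submodule.nontrivial_iff_ne_bot.2 hU0
  obtain ⟨c, hc⟩ := Module.End.exists_eigenvalue ((f i).restrict (hUinv i))
  obtain ⟨v, hv⟩ := hc.exists_hasEigenvector
  have hv1 : f i v = c • (v : V) := by
    have := congrArg Subtype.val hv.apply_eq_smul
    simpa using this
  have hv0 : (v : V) ≠ 0 := fun h => hv.2 (Subtype.ext h)
  let U' : Submodule ℂ V := U ⊓ LinearMap.ker (f i - c • LinearMap.id)
  have hmem : ∀ y, y ∈ U' ↔ y ∈ U ∧ f i y = c • y := by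
    intro y
    simp [U', sub_eq_zero]
  have hle : U' ≤ U := inf_le_left
  have hU' : U' = U := by
    apply Submodule.eq_of_le_of_finrank_le hle
    rw [hUn]
    apply Nat.find_min' hex
    refine ⟨U', hle.trans hUW, ?_, ?_, rfl⟩
    · exact (Submodule.ne_bot_iff U').2 ⟨v, (hmem v).2 ⟨v.2, hv1⟩, hv0⟩
    · intro j y hy
      rw [hmem] at hy ⊢
      refine ⟨hUinv j y hy.1, ?_⟩
      rw [hcomm i j y (hUW hy.1), hy.2, map_smul]
  refine ⟨c, ?_⟩
  have : x ∈ U' := hU' ▸ hxU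
  exact ((hmem x).1 this).2

/-- A continuous multiplicative function on the half-line is an exponential. -/
theorem exists_exp (c : ℝ → ℂ) (hc : ContinuousOn c (Ici 0)) (h0 : c 0 = 1)
    (hadd : ∀ s t, 0 ≤ s → 0 ≤ t → c (s + t) = c s * c t) :
    ∃ lam : ℂ, ∀ s : ℝ, 0 ≤ s → c s = Complex.exp (lam * s) := by
  set d : ℝ → ℂ := fun t => c (max t 0) with hd
  have hdc : Continuous d :=
    hc.comp_continuous (continuous_id.max continuous_const) fun t => mem_Ici.2 (le_max_right _ _)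
  have hdeq : ∀ t, 0 ≤ t → d t = c t := fun t ht => by simp [hd, max_eq_left ht]
  set J : ℝ → ℂ := fun t => ∫ u in (0 : ℝ)..t, d u with hJ
  have hJd : ∀ t, HasDerivAt J (d t) t := fun t => (hdc.integral_hasStrictDerivAt 0 t).hasDerivAt
  have hJ0 : J 0 = 0 := by simp [hJ]
  obtain ⟨h, hh0, hJh⟩ : ∃ h : ℝ, 0 < h ∧ J h ≠ 0 := by
    by_contra hcon
    push Not at hcon
    have h1 : HasDerivWithinAt J 0 (Ici 0) 0 := by
      refine (hasDerivWithinAt_const (0 : ℝ) (Ici 0) (0 : ℂ)).congr (fun t ht => ?_) hJ0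
      rcases (mem_Ici.1 ht).lt_or_eq with h | h
      · exact hcon t h
      · rw [← h, hJ0]
    have h2 : HasDerivWithinAt J (d 0) (Ici 0) 0 := (hJd 0).hasDerivWithinAt
    have h3 := (uniqueDiffWithinAt_Ici (0 : ℝ)).eq_deriv _ h1 h2
    rw [hdeq 0 le_rfl, h0] at h3
    exact zero_ne_one h3
  have hkey : ∀ s, 0 ≤ s → J (s + h) - J s = c s * J h := by
    intro s hs
    have e1 : J (s + h) - J s = ∫ u in s..(s + h), d u :=
      intervalIntegral.integral_interval_sub_left (hdc.intervalIntegrable _ _)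
        (hdc.intervalIntegrable _ _)
    have e2 : ∫ u in s..(s + h), d u = ∫ u in (0 : ℝ)..h, d (s + u) := by
      rw [intervalIntegral.integral_comp_add_left, add_zero]
    rw [e1, e2, hJ]
    simp only
    rw [← intervalIntegral.integral_const_mul]
    apply intervalIntegral.integral_congr
    intro u hu
    rw [uIcc_of_le hh0.le] at hu
    simp only
    rw [hdeq _ (add_nonneg hs hu.1), hdeq _ hu.1, hadd s u hs hu.1]
  set lam : ℂ := (c h - 1) / J h with hlam
  set g : ℝ → ℂ := fun s => (J (s + h) - J s) / J h * Complex.exp (-(lam * s)) with hg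
  have hgd : ∀ s, 0 ≤ s → HasDerivAt g 0 s := by
    intro s hs
    have e1 : HasDerivAt (fun s => J (s + h)) (d (s + h)) s := (hJd (s + h)).comp_add_const s h
    have e2 : HasDerivAt (fun s : ℝ => Complex.exp (-(lam * s)))
        (Complex.exp (-(lam * s)) * (-(lam * 1))) s :=
      ((Complex.ofRealCLM.hasDerivAt.const_mul lam).neg).cexp
    have e3 := ((e1.sub (hJd s)).div_const (J h)).mul e2
    refine e3.congr_deriv ?_
    simp only [Pi.sub_apply]
    rw [hkey s hs, hdeq _ (add_nonneg hs hh0.le), hdeq _ hs, hadd s h hs hh0.le, hlam]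
    field_simp
    ring
  refine ⟨lam, fun s hs => ?_⟩
  have e4 := constant_of_has_deriv_right_zero (f := g) (a := 0) (b := s)
    (fun t ht => (hgd t ht.1).continuousAt.continuousWithinAt)
    (fun t ht => (hgd t ht.1).hasDerivWithinAt) s ⟨hs, le_rfl⟩
  simp only [hg] at e4
  rw [hkey s hs, hkey 0 le_rfl, h0, mul_div_cancel_right₀ _ hJh, mul_div_cancel_right₀ _ hJh] at e4
  simp only [Complex.ofReal_zero, mul_zero, neg_zero, Complex.exp_zero, mul_one] at e4
  rw [Complex.exp_neg, mul_inv_eq_one₀ (Complex.exp_ne_zero _)] at e4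
  exact e4

end Vale.Agent.P139Z.Spec
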